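import Mathlib

/-!
Linear circuits for the discrete Fourier transform.

Wires are numbered: `0, ..., n-1` are the inputs, `n` is the constant `0`, and `n + 1 + i` is the
value of gate number `i`. A gate refers to earlier wires by number; a number that does not yet
denote a computed wire reads as the constant `0`.
-/

namespace Vale.Agent.Lib.P344

/-- A gate of a linear circuit: `u + v`, `u - v` or `c * u`, the arguments being wire numbers. -/
inductive Gate where
  | add (u v : ℕ) : Gate
  | sub (u v : ℕ) : Gate
  | smul (c : ℂ) (u : ℕ) : Gate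

/-- The value of a gate, given the list of values of the wires computed so far. -/
noncomputable def Gate.eval (vals : List ℂ) : Gate → ℂ
  | .add u v => vals.getD u 0 + vals.getD v 0
  | .sub u v => vals.getD u 0 - vals.getD v 0
  | .smul c u => c * vals.getD u 0

/-- Run gates in order, appending the value of each gate to the list of wire values. -/
noncomputable def runGates (vals : List ℂ) : List Gate → List ℂ
  | [] => vals
  | g :: gs => runGates (vals ++ [g.eval vals]) gs

/-- A linear circuit on `n` inputs with `n` designated output wires. Its size is `gates.length`. -/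
structure LinearCircuit (n : ℕ) where
  gates : List Gate
  outputs : Fin n → ℕ

/-- All wire values of the circuit on the input `x`. -/
noncomputable def LinearCircuit.values {n : ℕ} (C : LinearCircuit n) (x : Fin n → ℂ) : List ℂ :=
  runGates (List.ofFn x ++ [0]) C.gates

/-- The value of gate number `i` of the circuit on the input `x`. -/
noncomputable def LinearCircuit.gateValue {n : ℕ} (C : LinearCircuit n) (x : Fin n → ℂ)
    (i : ℕ) : ℂ :=
  (C.values x).getD (n + 1 + i) 0

/-- The circuit's outputs equal `A x` for every `x`. -/
def LinearCircuit.Computes {n : ℕ} (C : LinearCircuit n)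
    (A : Matrix (Fin n) (Fin n) ℂ) : Prop :=
  ∀ (x : Fin n → ℂ) (j : Fin n), (C.values x).getD (C.outputs j) 0 = A.mulVec x j

/-- The unnormalized discrete Fourier matrix `F_n = (ζ_n ^ (j k))` with `ζ_n = exp (2 π i / n)`. -/
noncomputable def fourier (n : ℕ) : Matrix (Fin n) (Fin n) ℂ :=
  Matrix.of fun j k => Complex.exp (2 * Real.pi * Complex.I / n) ^ ((j : ℕ) * (k : ℕ))

/-- Replace each scalar `c` of a gate by `σ c`. -/
def Gate.map (σ : ℂ →+* ℂ) : Gate → Gate
  | .add u v => .add u v
  | .sub u v => .sub u v
  | .smul c u => .smul (σ c) u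

/-- Replace each scalar `c` of a circuit by `σ c`. -/
def LinearCircuit.map {n : ℕ} (σ : ℂ →+* ℂ) (C : LinearCircuit n) : LinearCircuit n :=
  ⟨C.gates.map (Gate.map σ), C.outputs⟩

/-- The cost of a gate in the potential argument: `5` for `u ± v`, `1 + ‖σ c‖ ^ 2` for `c * u`. -/
noncomputable def Gate.weight (σ : ℂ →+* ℂ) : Gate → ℝ
  | .add _ _ => 5
  | .sub _ _ => 5
  | .smul c _ => 1 + ‖σ c‖ ^ 2

/-- A gate is large for `σ` and `c` if it is a scalar gate whose scalar has `‖σ a‖ > c`. -/
def Gate.IsLarge (σ : ℂ →+* ℂ) (c : ℝ) : Gate → Prop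
  | .add _ _ => False
  | .sub _ _ => False
  | .smul a _ => c < ‖σ a‖

open Classical in
/-- The number of large for `σ` and `c` gates of a circuit. -/
noncomputable def LinearCircuit.numLarge {n : ℕ} (C : LinearCircuit n) (σ : ℂ →+* ℂ) (c : ℝ) : ℕ :=
  (Finset.univ.filter fun i : Fin C.gates.length => (C.gates.get i).IsLarge σ c).card

end Vale.Agent.Lib.P344
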