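import Mathlib

/-!
Gram determinant potential used for the lower bound on linear circuits.
-/

namespace Vale.Agent.Lib.P344

open Matrix
open scoped ComplexOrder

variable {r : ℕ}

/-- The rank one positive semidefinite matrix of a row vector. -/
noncomputable def outer (w : Fin r → ℂ) : Matrix (Fin r) (Fin r) ℂ := vecMulVec (star w) w

lemma outer_posSemidef (w : Fin r → ℂ) : (outer w).PosSemidef := posSemidef_vecMulVec_star_self w

/-- The quadratic form of the inverse. -/
noncomputable def lev (P : Matrix (Fin r) (Fin r) ℂ) (w : Fin r → ℂ) : ℂ := w ⬝ᵥ (P⁻¹ *ᵥ star w)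

lemma det_add_outer {P : Matrix (Fin r) (Fin r) ℂ} (hP : P.PosDef) (w : Fin r → ℂ) :
    (P + outer w).det = P.det * (1 + lev P w) := by
  have hu : IsUnit P.det := (Matrix.isUnit_iff_isUnit_det P).1 hP.isUnit
  have h := det_add_replicateCol_mul_replicateRow (ι := Unit) hu (star w) w
  rw [outer, vecMulVec_eq Unit, h]
  congr 1
  rw [det_unique]
  simp [lev, Matrix.add_apply, Matrix.mul_apply, dotProduct, mulVec,
    Finset.sum_mul, Finset.mul_sum, mul_assoc]
  exact Finset.sum_comm

lemma outer_mulVec (w y : Fin r → ℂ) : outer w *ᵥ y = (w ⬝ᵥ y) • star w := by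
  funext i
  simp only [outer, vecMulVec, mulVec, dotProduct, Matrix.of_apply, Pi.smul_apply, smul_eq_mul,
    Pi.star_apply, Finset.sum_mul, Finset.mul_sum]
  refine Finset.sum_congr rfl fun x _ => ?_
  ring

lemma star_dot_outer (w y : Fin r → ℂ) :
    star y ⬝ᵥ (outer w *ᵥ y) = ((Complex.normSq (w ⬝ᵥ y) : ℝ) : ℂ) := by
  rw [outer_mulVec, dotProduct_smul, smul_eq_mul]
  have h : star y ⬝ᵥ star w = star (w ⬝ᵥ y) := star_dotProduct_star y w
  rw [h]
  simp [Complex.mul_conj, Complex.normSq_eq_conj_mul_self]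

/-- Leverage is a nonnegative real. -/
lemma lev_re_nonneg {P : Matrix (Fin r) (Fin r) ℂ} (hP : P.PosDef) (w : Fin r → ℂ) :
    0 ≤ (lev P w).re := by
  have hinv : (P⁻¹).PosSemidef := hP.inv.posSemidef
  have := hinv.dotProduct_mulVec_nonneg (star w)
  simp only [star_star] at this
  exact (Complex.le_def.1 this).1

lemma lev_im {P : Matrix (Fin r) (Fin r) ℂ} (hP : P.PosDef) (w : Fin r → ℂ) :
    (lev P w).im = 0 := by
  have hinv : (P⁻¹).PosSemidef := hP.inv.posSemidef
  have := hinv.dotProduct_mulVec_nonneg (star w)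
  simp only [star_star] at this
  exact ((Complex.le_def.1 this).2).symm

/-- A rank one bound: if `P` dominates `outer w` then the leverage of `w` is at most one. -/
lemma lev_le_one {P S : Matrix (Fin r) (Fin r) ℂ} (hP : P.PosDef) (hS : S.PosSemidef)
    {w : Fin r → ℂ} (hPS : P = S + outer w) : (lev P w).re ≤ 1 := by
  set y := P⁻¹ *ᵥ star w with hy
  have hPy : P *ᵥ y = star w := by
    have hu : IsUnit P.det := (Matrix.isUnit_iff_isUnit_det P).1 hP.isUnit
    rw [hy, mulVec_mulVec, Matrix.mul_nonsing_inv _ hu, one_mulVec]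
  have h1 : star y ⬝ᵥ (P *ᵥ y) = star (lev P w) := by
    rw [hPy]
    have : lev P w = w ⬝ᵥ y := rfl
    rw [this]
    exact star_dotProduct_star y w
  have h2 : star y ⬝ᵥ (P *ᵥ y) = star y ⬝ᵥ (S *ᵥ y) + star y ⬝ᵥ (outer w *ᵥ y) := by
    rw [hPS, add_mulVec, dotProduct_add]
  have h3 := hS.dotProduct_mulVec_nonneg y
  have h4 := star_dot_outer w y
  have hlev : w ⬝ᵥ y = lev P w := rfl
  rw [h4, hlev] at h2
  rw [h1] at h2
  have h5 : (star (lev P w)).re = (lev P w).re := by simp
  have h6 := congrArg Complex.re h2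
  rw [h5, Complex.add_re, Complex.ofReal_re] at h6
  have h7 : 0 ≤ (star y ⬝ᵥ (S *ᵥ y)).re := (Complex.le_def.1 h3).1
  have h8 : Complex.normSq (lev P w) = (lev P w).re ^ 2 := by
    rw [Complex.normSq_apply, lev_im hP w]; ring
  rw [h8] at h6
  have h9 := lev_re_nonneg hP w
  nlinarith

lemma lev_add_sub (P : Matrix (Fin r) (Fin r) ℂ) (a b : Fin r → ℂ) :
    lev P (a + b) + lev P (a - b) = 2 * lev P a + 2 * lev P b := by
  simp only [lev, star_add, star_sub, mulVec_add, mulVec_sub, add_dotProduct, sub_dotProduct,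
    dotProduct_add, dotProduct_sub]
  ring

lemma lev_smul (P : Matrix (Fin r) (Fin r) ℂ) (c : ℂ) (a : Fin r → ℂ) :
    lev P (c • a) = ((Complex.normSq c : ℝ) : ℂ) * lev P a := by
  simp only [lev, star_smul, mulVec_smul, smul_dotProduct, dotProduct_smul, smul_eq_mul]
  rw [Complex.normSq_eq_conj_mul_self]
  simp
  ring

lemma lev_add_le {P : Matrix (Fin r) (Fin r) ℂ} (hP : P.PosDef) {a b : Fin r → ℂ}
    (ha : (lev P a).re ≤ 1) (hb : (lev P b).re ≤ 1) : (lev P (a + b)).re ≤ 4 := by
  have h := congrArg Complex.re (lev_add_sub P a b)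
  simp at h
  have := lev_re_nonneg hP (a - b)
  linarith

lemma lev_sub_le {P : Matrix (Fin r) (Fin r) ℂ} (hP : P.PosDef) {a b : Fin r → ℂ}
    (ha : (lev P a).re ≤ 1) (hb : (lev P b).re ≤ 1) : (lev P (a - b)).re ≤ 4 := by
  have h := congrArg Complex.re (lev_add_sub P a b)
  simp at h
  have := lev_re_nonneg hP (a + b)
  linarith

lemma lev_smul_le {P : Matrix (Fin r) (Fin r) ℂ} {a : Fin r → ℂ}
    (ha : (lev P a).re ≤ 1) (c : ℂ) : (lev P (c • a)).re ≤ ‖c‖ ^ 2 := by
  rw [lev_smul, Complex.re_ofReal_mul, Complex.normSq_eq_norm_sq]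
  exact mul_le_of_le_one_right (by positivity) ha

/-- One step of the potential: real part of the determinant after adding a row. -/
lemma det_add_outer_re {P : Matrix (Fin r) (Fin r) ℂ} (hP : P.PosDef) (w : Fin r → ℂ) :
    ((P + outer w).det).re = (P.det).re * (1 + (lev P w).re) := by
  rw [det_add_outer hP]
  have h0 : (P.det).im = 0 := ((Complex.le_def.1 hP.det_pos.le).2).symm
  simp [Complex.mul_re, h0]

lemma det_re_pos {P : Matrix (Fin r) (Fin r) ℂ} (hP : P.PosDef) : 0 < (P.det).re :=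
  (Complex.lt_def.1 hP.det_pos).1

lemma posDef_add_outer {P : Matrix (Fin r) (Fin r) ℂ} (hP : P.PosDef) (w : Fin r → ℂ) :
    (P + outer w).PosDef := hP.add_posSemidef (outer_posSemidef w)

/-- Adding rows does not decrease the determinant. -/
lemma det_le_det_add_outer {P : Matrix (Fin r) (Fin r) ℂ} (hP : P.PosDef) (w : Fin r → ℂ) :
    (P.det).re ≤ ((P + outer w).det).re := by
  rw [det_add_outer_re hP]
  have := lev_re_nonneg hP w
  have h2 := det_re_pos hP
  nlinarith

end Vale.Agent.Lib.P344
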