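import Vale.Agent.Lib.P344.Defs
import Vale.Agent.Lib.P344.Gram

/-!
Lower bound for linear circuits computing matrices `A` with `Aᴴ A = n • 1`, allowing a few gates
to be arbitrary.
-/

namespace Vale.Agent.Lib.P344

open Matrix
open scoped ComplexOrder

section Generic

variable {M N : Type*} [AddCommGroup M] [Module ℂ M] [AddCommGroup N] [Module ℂ N]

/-- The value of a gate in a module. -/
def Gate.evalIn (vals : List M) : Gate → M
  | .add u v => vals.getD u 0 + vals.getD v 0
  | .sub u v => vals.getD u 0 - vals.getD v 0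
  | .smul c u => c • vals.getD u 0

/-- Run gates in a module. -/
def runIn (vals : List M) : List Gate → List M
  | [] => vals
  | g :: gs => runIn (vals ++ [g.evalIn vals]) gs

lemma getD_map_linear (f : M →ₗ[ℂ] N) (vals : List M) (u : ℕ) :
    (vals.map f).getD u 0 = f (vals.getD u 0) := by
  induction vals generalizing u with
  | nil => simp
  | cons a l ih =>
    cases u with
    | zero => simp
    | succ u => simpa using ih u

lemma evalIn_map (f : M →ₗ[ℂ] N) (vals : List M) (g : Gate) :
    g.evalIn (vals.map f) = f (g.evalIn vals) := by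
  cases g <;> simp only [Gate.evalIn, getD_map_linear, map_add, map_sub, map_smul]

lemma runIn_map (f : M →ₗ[ℂ] N) (vals : List M) (gs : List Gate) :
    (runIn vals gs).map f = runIn (vals.map f) gs := by
  induction gs generalizing vals with
  | nil => rfl
  | cons g gs ih =>
    simp only [runIn]
    rw [ih]
    simp [evalIn_map]

lemma length_runIn (vals : List M) (gs : List Gate) :
    (runIn vals gs).length = vals.length + gs.length := by
  induction gs generalizing vals with
  | nil => simp [runIn]
  | cons g gs ih =>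
    simp only [runIn]
    rw [ih]
    simp
    ring

lemma getD_runIn_of_lt (vals : List M) (gs : List Gate) {u : ℕ} (hu : u < vals.length) :
    (runIn vals gs).getD u 0 = vals.getD u 0 := by
  induction gs generalizing vals with
  | nil => rfl
  | cons g gs ih =>
    simp only [runIn]
    rw [ih _ (by simp; omega)]
    rw [List.getD_eq_getElem _ _ hu, List.getD_eq_getElem _ _ (by simp; omega)]
    rw [List.getElem_append_left hu]

lemma eval_eq_evalIn (vals : List ℂ) (g : Gate) : g.eval vals = g.evalIn vals := by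
  cases g <;> simp [Gate.eval, Gate.evalIn]

lemma runGates_eq_runIn (vals : List ℂ) (gs : List Gate) : runGates vals gs = runIn vals gs := by
  induction gs generalizing vals with
  | nil => rfl
  | cons g gs ih => simp [runGates, runIn, ih, eval_eq_evalIn]

end Generic

section Forms

variable {n : ℕ}

/-- The list of linear forms of the inputs and the constant `0`. -/
noncomputable def basisForms (n : ℕ) : List (Fin n → ℂ) :=
  List.ofFn (fun i : Fin n => Pi.single i 1) ++ [0]

/-- The linear form computed on each wire. -/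
noncomputable def forms (gs : List Gate) : List (Fin n → ℂ) := runIn (basisForms n) gs

/-- Evaluation of a linear form at `x`. -/
noncomputable def evalAt (x : Fin n → ℂ) : (Fin n → ℂ) →ₗ[ℂ] ℂ where
  toFun w := w ⬝ᵥ x
  map_add' a b := add_dotProduct a b x
  map_smul' c a := by simp [smul_dotProduct]

lemma basisForms_map_evalAt (x : Fin n → ℂ) :
    (basisForms n).map (evalAt x) = List.ofFn x ++ [0] := by
  simp only [basisForms, List.map_append, List.map_ofFn, List.map_cons, List.map_nil, map_zero]
  congr 2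
  funext i
  simp [evalAt, Function.comp]

lemma values_eq_forms (C : LinearCircuit n) (x : Fin n → ℂ) :
    C.values x = (forms C.gates : List (Fin n → ℂ)).map (evalAt x) := by
  rw [forms, runIn_map, basisForms_map_evalAt, LinearCircuit.values, runGates_eq_runIn]

lemma getD_values (C : LinearCircuit n) (x : Fin n → ℂ) (u : ℕ) :
    (C.values x).getD u 0 = (forms C.gates : List (Fin n → ℂ)).getD u 0 ⬝ᵥ x := by
  rw [values_eq_forms, getD_map_linear]
  rfl

lemma eq_of_forall_dot {a b : Fin n → ℂ} (h : ∀ x : Fin n → ℂ, a ⬝ᵥ x = b ⬝ᵥ x) : a = b := by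
  funext i
  have := h (Pi.single i 1)
  simpa using this

lemma row_of_computes {C : LinearCircuit n} {A : Matrix (Fin n) (Fin n) ℂ}
    (hC : C.Computes A) (j : Fin n) :
    (forms C.gates : List (Fin n → ℂ)).getD (C.outputs j) 0 = A j := by
  apply eq_of_forall_dot
  intro x
  have := hC x j
  rw [getD_values] at this
  rw [this]
  rfl

end Forms

section Potential

variable {r : ℕ}

/-- The Gram matrix of a list of row vectors. -/
noncomputable def gramL (L : List (Fin r → ℂ)) : Matrix (Fin r) (Fin r) ℂ := (L.map outer).sum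

lemma gramL_append_singleton (L : List (Fin r → ℂ)) (w : Fin r → ℂ) :
    gramL (L ++ [w]) = gramL L + outer w := by
  simp [gramL]

lemma gramL_posSemidef (L : List (Fin r → ℂ)) : (gramL L).PosSemidef := by
  induction L with
  | nil => simpa [gramL] using PosSemidef.zero
  | cons a l ih =>
    have : gramL (a :: l) = outer a + gramL l := by simp [gramL]
    rw [this]
    exact (outer_posSemidef a).add ih

lemma gramL_of_mem {L : List (Fin r → ℂ)} {a : Fin r → ℂ} (ha : a ∈ L) :
    ∃ S : Matrix (Fin r) (Fin r) ℂ, S.PosSemidef ∧ gramL L = S + outer a := by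
  induction L with
  | nil => simp at ha
  | cons b l ih =>
    have hb : gramL (b :: l) = outer b + gramL l := by simp [gramL]
    rcases List.mem_cons.1 ha with rfl | h
    · exact ⟨gramL l, gramL_posSemidef l, by rw [hb, add_comm]⟩
    · obtain ⟨S, hS, hSe⟩ := ih h
      refine ⟨outer b + S, (outer_posSemidef b).add hS, ?_⟩
      rw [hb, hSe, add_assoc]

lemma lev_zero (P : Matrix (Fin r) (Fin r) ℂ) : lev P 0 = 0 := by simp [lev]

lemma lev_getD_le {L : List (Fin r → ℂ)} (hP : (gramL L).PosDef) (u : ℕ) :
    (lev (gramL L) (L.getD u 0)).re ≤ 1 := by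
  by_cases hu : u < L.length
  · rw [List.getD_eq_getElem _ _ hu]
    obtain ⟨S, hS, hSe⟩ := gramL_of_mem (List.getElem_mem hu)
    exact lev_le_one hP hS hSe
  · rw [List.getD_eq_default _ _ (by omega), lev_zero]
    simp

lemma lev_evalIn_le {L : List (Fin r → ℂ)} (hP : (gramL L).PosDef) (g : Gate) :
    1 + (lev (gramL L) (g.evalIn L)).re ≤ g.weight (RingHom.id ℂ) := by
  cases g with
  | add u v =>
    have := lev_add_le hP (lev_getD_le hP u) (lev_getD_le hP v)
    simp only [Gate.evalIn, Gate.weight]
    linarith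
  | sub u v =>
    have := lev_sub_le hP (lev_getD_le hP u) (lev_getD_le hP v)
    simp only [Gate.evalIn, Gate.weight]
    linarith
  | smul c u =>
    have := lev_smul_le (lev_getD_le hP u) c
    simp only [Gate.evalIn, Gate.weight, RingHom.id_apply]
    linarith

lemma one_le_weight (σ : ℂ →+* ℂ) (g : Gate) : 1 ≤ g.weight σ := by
  cases g with
  | add u v => simp [Gate.weight]
  | sub u v => simp [Gate.weight]
  | smul c u => simp only [Gate.weight]; nlinarith [sq_nonneg ‖σ c‖]

/-- Product of weights of the gates, skipping those whose position is in `B`. -/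
noncomputable def prodW (σ : ℂ →+* ℂ) (B : Finset ℕ) (i : ℕ) : List Gate → ℝ
  | [] => 1
  | g :: gs => (if i ∈ B then 1 else g.weight σ) * prodW σ B (i + 1) gs

lemma weight_map (σ : ℂ →+* ℂ) (g : Gate) : (g.map σ).weight (RingHom.id ℂ) = g.weight σ := by
  cases g <;> simp [Gate.map, Gate.weight]

lemma prodW_map (σ : ℂ →+* ℂ) (B : Finset ℕ) (i : ℕ) (gs : List Gate) :
    prodW (RingHom.id ℂ) B i (gs.map (Gate.map σ)) = prodW σ B i gs := by
  induction gs generalizing i with
  | nil => rfl
  | cons g gs ih => simp [prodW, ih, weight_map]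

lemma prodW_eq (σ : ℂ →+* ℂ) (B : Finset ℕ) (i : ℕ) (gs : List Gate) :
    prodW σ B i gs = ∏ j : Fin gs.length,
      if i + (j : ℕ) ∈ B then 1 else (gs.get j).weight σ := by
  induction gs generalizing i with
  | nil => simp [prodW]
  | cons g gs ih =>
    simp only [prodW, ih]
    have h := Fin.prod_univ_succ (n := gs.length) (fun j : Fin (gs.length + 1) =>
      if i + (j : ℕ) ∈ B then (1 : ℝ) else ((g :: gs).get j).weight σ)
    refine Eq.trans ?_ h.symm
    congr 1
    refine Finset.prod_congr rfl fun j _ => ?_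
    have hj : i + 1 + (j : ℕ) = i + ((j : ℕ) + 1) := by ring
    simp [hj]

lemma prodW_nonneg (σ : ℂ →+* ℂ) (B : Finset ℕ) (i : ℕ) (gs : List Gate) :
    0 ≤ prodW σ B i gs := by
  rw [prodW_eq]
  refine Finset.prod_nonneg fun j _ => ?_
  split_ifs
  · norm_num
  · exact le_trans (by norm_num) (one_le_weight _ _)

/-- The potential grows by at most the product of the weights of the gates not in `B`. -/
lemma det_run_le (B : Finset ℕ) (gs : List Gate) (L : List (Fin r → ℂ)) (i : ℕ)
    (hP : (gramL L).PosDef)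
    (hB : ∀ j, j < gs.length → i + j ∈ B → (runIn L gs).getD (L.length + j) 0 = 0) :
    (gramL (runIn L gs)).PosDef ∧
      ((gramL (runIn L gs)).det).re ≤ prodW (RingHom.id ℂ) B i gs * ((gramL L).det).re := by
  induction gs generalizing L i with
  | nil => exact ⟨hP, by simp [runIn, prodW]⟩
  | cons g gs ih =>
    simp only [runIn] at hB ⊢
    set w := g.evalIn L with hw
    have hP' : (gramL (L ++ [w])).PosDef := by
      rw [gramL_append_singleton]
      exact posDef_add_outer hP w
    have hB' : ∀ j, j < gs.length → (i + 1) + j ∈ B →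
        (runIn (L ++ [w]) gs).getD ((L ++ [w]).length + j) 0 = 0 := by
      intro j hj hjB
      have := hB (j + 1) (by simpa using hj) (by rwa [show i + (j + 1) = i + 1 + j by ring])
      rwa [show L.length + (j + 1) = (L ++ [w]).length + j by simp; ring] at this
    obtain ⟨h1, h2⟩ := ih (L ++ [w]) (i + 1) hP' hB'
    refine ⟨h1, h2.trans ?_⟩
    have hstep : ((gramL (L ++ [w])).det).re
        ≤ (if i ∈ B then 1 else g.weight (RingHom.id ℂ)) * ((gramL L).det).re := by
      rw [gramL_append_singleton]
      split_ifs with hi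
      · -- the new row vanishes
        have h0 := hB 0 (by simp) (by simpa using hi)
        have h3 : (runIn (L ++ [w]) gs).getD (L.length + 0) 0 = (L ++ [w]).getD L.length 0 :=
          getD_runIn_of_lt _ _ (by simp)
        have h4 : (L ++ [w]).getD L.length 0 = w := by simp
        rw [h3, h4] at h0
        rw [h0]
        have : outer (0 : Fin r → ℂ) = 0 := by simp [outer]
        rw [this, add_zero, one_mul]
      · rw [det_add_outer_re hP]
        have := lev_evalIn_le hP g
        have hdet := det_re_pos hP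
        rw [mul_comm]
        exact mul_le_mul_of_nonneg_right this hdet.le
    have hnn := prodW_nonneg (RingHom.id ℂ) B (i + 1) gs
    simp only [prodW]
    calc prodW (RingHom.id ℂ) B (i + 1) gs * ((gramL (L ++ [w])).det).re
        ≤ prodW (RingHom.id ℂ) B (i + 1) gs *
            ((if i ∈ B then 1 else g.weight (RingHom.id ℂ)) * ((gramL L).det).re) :=
          mul_le_mul_of_nonneg_left hstep hnn
      _ = _ := by ring

/-- The Gram matrix as a sum over positions. -/
lemma gramL_eq_sum (L : List (Fin r → ℂ)) :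
    gramL L = ∑ i ∈ Finset.range L.length, outer (L.getD i 0) := by
  induction L with
  | nil => simp [gramL]
  | cons a l ih =>
    have hb : gramL (a :: l) = outer a + gramL l := by simp [gramL]
    rw [hb, ih, List.length_cons, Finset.sum_range_succ']
    simp [add_comm]

/-- Adding rows does not decrease the determinant. -/
lemma det_le_det_add_sum {P : Matrix (Fin r) (Fin r) ℂ} (hP : P.PosDef) (f : ℕ → Fin r → ℂ)
    (U : Finset ℕ) :
    (P.det).re ≤ ((P + ∑ i ∈ U, outer (f i)).det).re ∧ (P + ∑ i ∈ U, outer (f i)).PosDef := by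
  classical
  induction U using Finset.induction_on with
  | empty => simpa using hP
  | insert a s ha ih =>
    rw [Finset.sum_insert ha, add_comm (outer (f a)), ← add_assoc]
    exact ⟨ih.1.trans (det_le_det_add_outer ih.2 _), posDef_add_outer ih.2 _⟩

/-- The Gram matrix dominates the Gram matrix of any injectively chosen family of its rows. -/
lemma det_sum_le_det_gramL {m : ℕ} (L : List (Fin r → ℂ)) (o : Fin m → ℕ) (ho : Function.Injective o)
    (hP : (∑ j, outer (L.getD (o j) 0)).PosDef) :
    ((∑ j, outer (L.getD (o j) 0)).det).re ≤ ((gramL L).det).re := by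
  classical
  set T : Finset ℕ := Finset.univ.image o with hT
  have h1 : ∑ j, outer (L.getD (o j) 0) = ∑ i ∈ T, outer (L.getD i 0) := by
    rw [hT, Finset.sum_image (fun a _ b _ h => ho h)]
  set T' := T ∩ Finset.range L.length with hT'
  have h2 : ∑ i ∈ T, outer (L.getD i 0) = ∑ i ∈ T', outer (L.getD i 0) := by
    symm
    apply Finset.sum_subset Finset.inter_subset_left
    intro i hi hi'
    have : i ∉ Finset.range L.length := fun h => hi' (Finset.mem_inter.2 ⟨hi, h⟩)
    have hlen : L.length ≤ i := by simpa using this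
    rw [List.getD_eq_default _ _ hlen]
    simp [outer]
  have h3 : gramL L = ∑ i ∈ T', outer (L.getD i 0) +
      ∑ i ∈ Finset.range L.length \ T', outer (L.getD i 0) := by
    rw [gramL_eq_sum, add_comm, Finset.sum_sdiff Finset.inter_subset_right]
  rw [h1, h2] at hP ⊢
  rw [h3]
  exact (det_le_det_add_sum hP (fun i => L.getD i 0) _).1

end Potential

section MainBound

variable {n : ℕ}

/-- The row restriction map. -/
noncomputable def restrictRow {r : ℕ} (Q : Matrix (Fin n) (Fin r) ℂ) :
    (Fin n → ℂ) →ₗ[ℂ] (Fin r → ℂ) where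
  toFun w := w ᵥ* Q
  map_add' a b := add_vecMul Q a b
  map_smul' c a := by simp [smul_vecMul]

lemma gramL_base {r : ℕ} (Q : Matrix (Fin n) (Fin r) ℂ) :
    gramL ((basisForms n).map (restrictRow Q)) = Qᴴ * Q := by
  simp only [basisForms, List.map_append, List.map_ofFn, List.map_cons, List.map_nil, map_zero]
  rw [gramL_append_singleton]
  have h0 : outer (0 : Fin r → ℂ) = 0 := by simp [outer]
  rw [h0, add_zero, gramL, List.map_ofFn, List.sum_ofFn]
  ext k l
  simp only [Function.comp, restrictRow, LinearMap.coe_mk, AddHom.coe_mk, single_one_vecMul]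
  simp [Matrix.sum_apply, outer, vecMulVec, Matrix.mul_apply]

lemma sum_outer_rows {r : ℕ} (A : Matrix (Fin n) (Fin n) ℂ) (Q : Matrix (Fin n) (Fin r) ℂ) :
    ∑ j, outer (A j ᵥ* Q) = Qᴴ * (Aᴴ * A) * Q := by
  have h : Qᴴ * (Aᴴ * A) * Q = (A * Q)ᴴ * (A * Q) := by
    rw [conjTranspose_mul]
    simp only [Matrix.mul_assoc]
  rw [h]
  simp_rw [← Matrix.mul_apply_eq_vecMul]
  ext k l
  rw [Matrix.sum_apply, Matrix.mul_apply]
  simp [outer, vecMulVec, conjTranspose_apply]

/-- The main bound: if `Aᴴ A = n • 1` and the gates in `B` vanish on the subspace `V`, then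
`n ^ dim V` is at most the product of the weights of the gates outside `B`. -/
theorem main_bound (hn : 1 ≤ n) {C : LinearCircuit n} {A : Matrix (Fin n) (Fin n) ℂ}
    (hC : C.Computes A) (hA : Aᴴ * A = (n : ℂ) • (1 : Matrix (Fin n) (Fin n) ℂ))
    (ho : Function.Injective C.outputs)
    (B : Finset ℕ) (V : Submodule ℂ (Fin n → ℂ))
    (hV : ∀ x ∈ V, ∀ i ∈ B, i < C.gates.length → C.gateValue x i = 0) :
    (n : ℝ) ^ (Module.finrank ℂ V) ≤ prodW (RingHom.id ℂ) B 0 C.gates := by
  classical
  set r := Module.finrank ℂ V with hr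
  let b : Module.Basis (Fin r) ℂ V := Module.finBasis ℂ V
  let Q : Matrix (Fin n) (Fin r) ℂ := Matrix.of fun i k => (b k : Fin n → ℂ) i
  -- `Q` has independent columns
  have hli : LinearIndependent ℂ (fun k => (b k : Fin n → ℂ)) :=
    b.linearIndependent.map' V.subtype (Submodule.ker_subtype V)
  have hQmul : ∀ y : Fin r → ℂ, Q *ᵥ y = ∑ k, y k • (b k : Fin n → ℂ) := by
    intro y
    funext i
    simp [Q, mulVec, dotProduct, mul_comm]
  have hQinj : Function.Injective Q.mulVec := by
    intro y z hyz
    have h1 : ∑ k, y k • (b k : Fin n → ℂ) = ∑ k, z k • (b k : Fin n → ℂ) := by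
      rw [← hQmul, ← hQmul]; exact hyz
    have h4 : ∑ k, (y k - z k) • (b k : Fin n → ℂ) = 0 := by
      simp only [sub_smul, Finset.sum_sub_distrib]
      rw [h1, sub_self]
    funext k
    exact sub_eq_zero.1 (Fintype.linearIndependent_iff.1 hli (fun k => y k - z k) h4 k)
  have hPD0 : (Qᴴ * Q).PosDef := PosDef.conjTranspose_mul_self Q hQinj
  -- the restricted rows
  set L₀ := (basisForms n).map (restrictRow Q) with hL₀
  have hL₀g : gramL L₀ = Qᴴ * Q := gramL_base Q
  have hL₀len : L₀.length = n + 1 := by simp [hL₀, basisForms]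
  set Lf := runIn L₀ C.gates with hLf
  have hLfmap : (forms C.gates : List (Fin n → ℂ)).map (restrictRow Q) = Lf := by
    rw [forms, runIn_map]
  -- the gates in `B` have vanishing rows
  have hBrow : ∀ j, j < C.gates.length → 0 + j ∈ B → Lf.getD (L₀.length + j) 0 = 0 := by
    intro j hj hjB
    rw [← hLfmap, getD_map_linear, hL₀len]
    funext k
    have hjB' : j ∈ B := by simpa using hjB
    have h := hV (b k : Fin n → ℂ) (b k).2 j hjB' hj
    rw [LinearCircuit.gateValue, getD_values] at h
    have : (restrictRow Q ((forms C.gates : List (Fin n → ℂ)).getD (n + 1 + j) 0)) k =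
        (forms C.gates : List (Fin n → ℂ)).getD (n + 1 + j) 0 ⬝ᵥ (b k : Fin n → ℂ) := by
      simp [restrictRow, vecMul, dotProduct, Q]
    rw [this, h]
    rfl
  have hPD0' : (gramL L₀).PosDef := by rw [hL₀g]; exact hPD0
  obtain ⟨hPDf, hup⟩ := det_run_le B C.gates L₀ 0 hPD0' hBrow
  -- the rows of the outputs
  have hrow : ∀ j, Lf.getD (C.outputs j) 0 = A j ᵥ* Q := by
    intro j
    rw [← hLfmap, getD_map_linear, row_of_computes hC]
    rfl
  have hsum : ∑ j, outer (Lf.getD (C.outputs j) 0) = (n : ℂ) • (Qᴴ * Q) := by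
    simp only [hrow]
    rw [sum_outer_rows, hA]
    simp
  have hnpos : (0 : ℝ) < n := by exact_mod_cast hn
  have hncpos : (0 : ℂ) < (n : ℂ) := by exact_mod_cast hn
  have hPDn : ((n : ℂ) • (Qᴴ * Q)).PosDef := hPD0.smul hncpos
  have hlow := det_sum_le_det_gramL Lf C.outputs ho (by rw [hsum]; exact hPDn)
  rw [hsum, det_smul] at hlow
  have hcard : Fintype.card (Fin r) = r := Fintype.card_fin r
  rw [hcard] at hlow
  have hdpos := det_re_pos hPD0
  have hcalc : (((n : ℂ) ^ r * (Qᴴ * Q).det)).re = (n : ℝ) ^ r * ((Qᴴ * Q).det).re := by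
    rw [← Complex.ofReal_natCast, ← Complex.ofReal_pow, Complex.re_ofReal_mul]
  rw [hcalc] at hlow
  rw [hL₀g] at hup
  have := hlow.trans hup
  exact le_of_mul_le_mul_right this hdpos

end MainBound

section Fourier

variable {n : ℕ}

/-- The Fourier matrix of a root of unity `ω`. -/
noncomputable def fourierAt (n : ℕ) (ω : ℂ) : Matrix (Fin n) (Fin n) ℂ :=
  Matrix.of fun j k => ω ^ ((j : ℕ) * (k : ℕ))

lemma sum_geom_root {ρ : ℂ} (h1 : ρ ^ n = 1) (h2 : ρ ≠ 1) :
    ∑ j : Fin n, ρ ^ (j : ℕ) = 0 := by
  rw [Fin.sum_univ_eq_sum_range (fun j => ρ ^ j) n, geom_sum_eq h2, h1, sub_self, zero_div]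

lemma fourierAt_orthogonal {ω : ℂ} (hω : IsPrimitiveRoot ω n) (hn : 1 ≤ n) :
    (fourierAt n ω)ᴴ * fourierAt n ω = (n : ℂ) • (1 : Matrix (Fin n) (Fin n) ℂ) := by
  have hnorm : ‖ω‖ = 1 := Complex.norm_eq_one_of_pow_eq_one hω.pow_eq_one (by omega)
  have hne : ω ≠ 0 := hω.ne_zero (by omega)
  have hconj : (starRingEnd ℂ) ω = ω⁻¹ := by
    rw [Complex.inv_def, Complex.normSq_eq_norm_sq, hnorm]
    simp
  ext k l
  rw [Matrix.mul_apply, Matrix.smul_apply, Matrix.one_apply, smul_eq_mul]
  simp only [conjTranspose_apply, fourierAt, Matrix.of_apply]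
  have hterm : ∀ j : Fin n, star (ω ^ ((j : ℕ) * (k : ℕ))) * ω ^ ((j : ℕ) * (l : ℕ)) =
      (ω⁻¹ ^ (k : ℕ) * ω ^ (l : ℕ)) ^ (j : ℕ) := by
    intro j
    rw [star_pow, Complex.star_def, hconj, mul_pow, ← pow_mul, ← pow_mul, mul_comm (j : ℕ) (k : ℕ),
      mul_comm (j : ℕ) (l : ℕ)]
  simp_rw [hterm]
  by_cases hkl : k = l
  · subst hkl
    have : ω⁻¹ ^ (k : ℕ) * ω ^ (k : ℕ) = 1 := by
      rw [inv_pow, inv_mul_cancel₀ (pow_ne_zero _ hne)]
    simp only [this, one_pow]
    simp
  · rw [if_neg hkl, mul_zero]
    apply sum_geom_root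
    · have hk : (ω ^ (k : ℕ)) ^ n = 1 := by
        rw [← pow_mul, mul_comm, pow_mul, hω.pow_eq_one, one_pow]
      have hl : (ω ^ (l : ℕ)) ^ n = 1 := by
        rw [← pow_mul, mul_comm, pow_mul, hω.pow_eq_one, one_pow]
      rw [mul_pow, inv_pow, inv_pow, hk, hl]
      simp
    · intro h
      apply hkl
      have h2 : ω ^ (l : ℕ) = ω ^ (k : ℕ) := by
        have h3 := congrArg (fun z => ω ^ (k : ℕ) * z) h
        simp only [mul_one] at h3
        rw [← mul_assoc, inv_pow, mul_inv_cancel₀ (pow_ne_zero _ hne), one_mul] at h3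
        exact h3
      exact Fin.ext (hω.pow_inj l.2 k.2 h2).symm

lemma outputs_injective {ω : ℂ} (hω : IsPrimitiveRoot ω n) (hn : 2 ≤ n) {C : LinearCircuit n}
    (hC : C.Computes (fourierAt n ω)) : Function.Injective C.outputs := by
  intro j j' hjj
  have h1 := row_of_computes hC j
  have h2 := row_of_computes hC j'
  rw [hjj, h2] at h1
  have h3 := congrFun h1 (⟨1, by omega⟩ : Fin n)
  simp only [fourierAt, Matrix.of_apply, mul_one] at h3
  exact Fin.ext (hω.pow_inj j'.2 j.2 h3).symm

/-- Apply `σ` to each coordinate. -/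
def mapVec (σ : ℂ →+* ℂ) (w : Fin n → ℂ) : Fin n → ℂ := fun i => σ (w i)

lemma mapVec_zero (σ : ℂ →+* ℂ) : mapVec σ (0 : Fin n → ℂ) = 0 := by
  funext i; simp [mapVec]

lemma getD_map_mapVec (σ : ℂ →+* ℂ) (vals : List (Fin n → ℂ)) (u : ℕ) :
    (vals.map (mapVec σ)).getD u 0 = mapVec σ (vals.getD u 0) := by
  induction vals generalizing u with
  | nil => simp [mapVec_zero]
  | cons a l ih =>
    cases u with
    | zero => simp
    | succ u => simpa using ih u

lemma evalIn_mapVec (σ : ℂ →+* ℂ) (vals : List (Fin n → ℂ)) (g : Gate) :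
    (g.map σ).evalIn (vals.map (mapVec σ)) = mapVec σ (g.evalIn vals) := by
  cases g <;> simp only [Gate.map, Gate.evalIn, getD_map_mapVec] <;> funext i <;>
    simp [mapVec]

lemma runIn_mapVec (σ : ℂ →+* ℂ) (vals : List (Fin n → ℂ)) (gs : List Gate) :
    (runIn vals gs).map (mapVec σ) = runIn (vals.map (mapVec σ)) (gs.map (Gate.map σ)) := by
  induction gs generalizing vals with
  | nil => rfl
  | cons g gs ih =>
    simp only [runIn, List.map_cons]
    rw [ih]
    simp [evalIn_mapVec]

lemma basisForms_mapVec (σ : ℂ →+* ℂ) : (basisForms n).map (mapVec σ) = basisForms n := by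
  simp only [basisForms, List.map_append, List.map_ofFn, List.map_cons, List.map_nil, mapVec_zero]
  congr 2
  funext i
  funext k
  simp only [Function.comp, mapVec, Pi.single_apply]
  split_ifs <;> simp

lemma forms_map (σ : ℂ →+* ℂ) (gs : List Gate) :
    (forms (gs.map (Gate.map σ)) : List (Fin n → ℂ)) = (forms gs).map (mapVec σ) := by
  rw [forms, forms, runIn_mapVec, basisForms_mapVec]

lemma computes_map {C : LinearCircuit n} {A : Matrix (Fin n) (Fin n) ℂ} (σ : ℂ →+* ℂ)
    (hC : C.Computes A) : (C.map σ).Computes (Matrix.of fun j k => σ (A j k)) := by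
  intro x j
  rw [getD_values]
  have h1 : (forms (C.map σ).gates : List (Fin n → ℂ)).getD ((C.map σ).outputs j) 0 =
      mapVec σ (A j) := by
    show (forms (C.gates.map (Gate.map σ)) : List (Fin n → ℂ)).getD (C.outputs j) 0 = _
    rw [forms_map, getD_map_mapVec, row_of_computes hC]
  rw [h1]
  rfl

lemma fourier_eq (n : ℕ) : fourier n = fourierAt n (Complex.exp (2 * Real.pi * Complex.I / n)) :=
  rfl

lemma map_fourier (σ : ℂ →+* ℂ) (n : ℕ) :
    (Matrix.of fun j k => σ (fourier n j k)) =
      fourierAt n (σ (Complex.exp (2 * Real.pi * Complex.I / n))) := by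
  ext j k
  simp [fourier, fourierAt, map_pow]

/-- The general form of the bound for the Fourier matrix and every ring map `σ` of `ℂ`. -/
theorem general_bound (hn : 2 ≤ n) {C : LinearCircuit n} (hC : C.Computes (fourier n))
    (σ : ℂ →+* ℂ) (B : Finset (Fin C.gates.length)) (V : Submodule ℂ (Fin n → ℂ))
    (hV : ∀ x ∈ V, ∀ i ∈ B, (C.map σ).gateValue x i = 0) :
    (n : ℝ) ^ (Module.finrank ℂ V) ≤ ∏ i ∈ Bᶜ, (C.gates.get i).weight σ := by
  classical
  have hn0 : n ≠ 0 := by omega
  set ω := σ (Complex.exp (2 * Real.pi * Complex.I / n)) with hω0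
  have hω : IsPrimitiveRoot ω n := by
    have h0 := Complex.isPrimitiveRoot_exp n hn0
    exact h0.map_of_injective σ.injective
  have hC' : (C.map σ).Computes (fourierAt n ω) := by
    rw [hω0, ← map_fourier]
    exact computes_map σ hC
  have hout := outputs_injective hω hn hC'
  have hA := fourierAt_orthogonal hω (by omega)
  set B' : Finset ℕ := B.image (fun i : Fin C.gates.length => (i : ℕ)) with hB'
  have hV' : ∀ x ∈ V, ∀ i ∈ B', i < (C.map σ).gates.length → (C.map σ).gateValue x i = 0 := by
    intro x hx i hi _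
    obtain ⟨i', hi', rfl⟩ := Finset.mem_image.1 hi
    exact hV x hx i' hi'
  have hmain := main_bound (by omega) hC' hA hout B' V hV'
  have hgates : (C.map σ).gates = C.gates.map (Gate.map σ) := rfl
  rw [hgates, prodW_map, prodW_eq] at hmain
  refine hmain.trans (le_of_eq ?_)
  rw [Finset.compl_eq_univ_sdiff, ← Finset.prod_sdiff (Finset.subset_univ B)] 
  have hone : ∏ j ∈ B, (if 0 + (j : ℕ) ∈ B' then (1 : ℝ) else (C.gates.get j).weight σ) = 1 := by
    refine Finset.prod_eq_one fun j hj => ?_
    rw [if_pos]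
    rw [zero_add]
    exact Finset.mem_image_of_mem _ hj
  rw [hone, mul_one]
  refine Finset.prod_congr rfl fun j hj => ?_
  rw [if_neg]
  intro h
  rw [zero_add] at h
  obtain ⟨i', hi', hij⟩ := Finset.mem_image.1 h
  have : i' = j := Fin.ext hij
  subst this
  exact (Finset.mem_sdiff.1 hj).2 hi'

/-- The linear form of a row. -/
noncomputable def dotForm (w : Fin n → ℂ) : (Fin n → ℂ) →ₗ[ℂ] ℂ where
  toFun x := w ⬝ᵥ x
  map_add' a b := dotProduct_add w a b
  map_smul' c a := by simp [dotProduct_smul]

/-- Count form of the bound. -/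
theorem count_bound (hn : 2 ≤ n) {C : LinearCircuit n} (hC : C.Computes (fourier n))
    (σ : ℂ →+* ℂ) (B : Finset (Fin C.gates.length)) :
    (n : ℝ) ^ (n - B.card) ≤ ∏ i ∈ Bᶜ, (C.gates.get i).weight σ := by
  classical
  -- the subspace on which the gates of `B` vanish
  let φ : (Fin n → ℂ) →ₗ[ℂ] (B → ℂ) := LinearMap.pi fun i =>
    dotForm ((forms (C.map σ).gates : List (Fin n → ℂ)).getD (n + 1 + ((i : Fin C.gates.length) : ℕ)) 0)
  let V : Submodule ℂ (Fin n → ℂ) := LinearMap.ker φ
  have hV : ∀ x ∈ V, ∀ i ∈ B, (C.map σ).gateValue x i = 0 := by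
    intro x hx i hi
    rw [LinearCircuit.gateValue, getD_values]
    have := congrFun (LinearMap.mem_ker.1 hx) ⟨i, hi⟩
    exact this
  have hdim : n - B.card ≤ Module.finrank ℂ V := by
    show n - B.card ≤ Module.finrank ℂ (LinearMap.ker φ)
    have h1 := LinearMap.finrank_range_add_finrank_ker φ
    have h2 : Module.finrank ℂ (LinearMap.range φ) ≤ Module.finrank ℂ (B → ℂ) :=
      Submodule.finrank_le _
    have h3 : Module.finrank ℂ (B → ℂ) = B.card := by simp
    have h4 : Module.finrank ℂ (Fin n → ℂ) = n := by simp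
    omega
  have hnR : (1 : ℝ) ≤ n := by
    have : (2 : ℝ) ≤ n := by exact_mod_cast hn
    linarith
  exact (pow_le_pow_right₀ hnR hdim).trans (general_bound hn hC σ B V hV)

/-- Threshold form of the bound. -/
theorem threshold_bound (hn : 2 ≤ n) {C : LinearCircuit n} (hC : C.Computes (fourier n))
    (σ : ℂ →+* ℂ) {c : ℝ} (hc : 2 ≤ c) :
    ((n : ℝ) - C.numLarge σ c) * Real.logb 2 n ≤ C.gates.length * Real.logb 2 (1 + c ^ 2) := by
  classical
  set B : Finset (Fin C.gates.length) :=
    Finset.univ.filter fun i => (C.gates.get i).IsLarge σ c with hB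
  have hcard : C.numLarge σ c = B.card := by
    rw [LinearCircuit.numLarge, hB]
  have hK : (1 : ℝ) ≤ 1 + c ^ 2 := by nlinarith
  have hbase : (1 : ℝ) < 2 := by norm_num
  have hnR : (2 : ℝ) ≤ n := by exact_mod_cast hn
  have hlogn : 0 ≤ Real.logb 2 n := Real.logb_nonneg hbase (by linarith)
  have hlogK : 0 ≤ Real.logb 2 (1 + c ^ 2) := Real.logb_nonneg hbase hK
  have hprod : ∏ i ∈ Bᶜ, (C.gates.get i).weight σ ≤ (1 + c ^ 2) ^ C.gates.length := by
    calc ∏ i ∈ Bᶜ, (C.gates.get i).weight σ
        ≤ ∏ _i ∈ Bᶜ, (1 + c ^ 2) := by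
          refine Finset.prod_le_prod (fun i _ => ?_) (fun i hi => ?_)
          · exact le_trans (by norm_num) (one_le_weight σ _)
          · have hi' : ¬ (C.gates.get i).IsLarge σ c := by
              intro h
              exact (Finset.mem_compl.1 hi) (Finset.mem_filter.2 ⟨Finset.mem_univ _, h⟩)
            cases hg : C.gates.get i with
            | add u v => simp only [Gate.weight]; nlinarith
            | sub u v => simp only [Gate.weight]; nlinarith
            | smul a u =>
              rw [hg] at hi'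
              simp only [Gate.IsLarge, not_lt] at hi'
              simp only [Gate.weight]
              have := norm_nonneg (σ a)
              nlinarith
      _ = (1 + c ^ 2) ^ (Bᶜ.card) := by simp
      _ ≤ (1 + c ^ 2) ^ C.gates.length := by
          refine pow_le_pow_right₀ hK ?_
          calc Bᶜ.card ≤ (Finset.univ : Finset (Fin C.gates.length)).card :=
                Finset.card_le_card (Finset.subset_univ _)
            _ = C.gates.length := by simp
  have hmain := (count_bound hn hC σ B).trans hprod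
  have hlog := Real.logb_le_logb_of_le hbase (by positivity) hmain
  rw [Real.logb_pow, Real.logb_pow] at hlog
  rw [hcard]
  by_cases hk : B.card ≤ n
  · rw [Nat.cast_sub hk] at hlog
    exact hlog
  · have hneg : (n : ℝ) - B.card ≤ 0 := by
      have : (n : ℝ) ≤ B.card := by exact_mod_cast (by omega : n ≤ B.card)
      linarith
    have h1 := mul_nonpos_of_nonpos_of_nonneg hneg hlogn
    have h2 : 0 ≤ (C.gates.length : ℝ) * Real.logb 2 (1 + c ^ 2) := by positivity
    linarith

end Fourier

end Vale.Agent.Lib.P344
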