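import Vale.Agent.Lib.P344.Defs

/-!
The largest product of scalars along a path of a linear circuit.
-/

namespace Vale.Agent.Lib.P344

/-- One gate of the recursion computing, for each wire, the largest over all paths from an input to
that wire of the product of `max 1 ‖c‖` over the scalar gates `c * u` on the path. -/
noncomputable def Gate.pathStep (vals : List ℝ) : Gate → ℝ
  | .add u v => max (vals.getD u 1) (vals.getD v 1)
  | .sub u v => max (vals.getD u 1) (vals.getD v 1)
  | .smul c u => max 1 ‖c‖ * vals.getD u 1

/-- Run the recursion along the gates, appending the value of each gate. -/
noncomputable def runPath (vals : List ℝ) : List Gate → List ℝ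
  | [] => vals
  | g :: gs => runPath (vals ++ [g.pathStep vals]) gs

/-- The largest product of `max 1 ‖c‖` along a path from an input to output number `j`. -/
noncomputable def LinearCircuit.pathProduct {n : ℕ} (C : LinearCircuit n) (j : Fin n) : ℝ :=
  (runPath (List.replicate (n + 1) 1) C.gates).getD (C.outputs j) 1

end Vale.Agent.Lib.P344
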