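import Vale.Agent.Lib.P344.Main
import Vale.Agent.Lib.P344.PathDefs

/-!
Normal form of a linear circuit: all scalars have modulus at most one except for `n` final gates,
and the resulting lower bound in terms of products of scalars along paths.
-/

namespace Vale.Agent.Lib.P344

open Matrix
open scoped ComplexOrder

lemma getD_append_single {α : Type*} (L : List α) (a d : α) (w : ℕ) :
    (L ++ [a]).getD w d = if w < L.length then L.getD w d else if w = L.length then a else d := by
  split_ifs with h1 h2
  · rw [List.getD_eq_getElem _ _ h1, List.getD_eq_getElem _ _ (by simp; omega),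
      List.getElem_append_left h1]
  · subst h2; simp
  · rw [List.getD_eq_default _ _ (by simp; omega)]

lemma runGates_append (V : List ℂ) (E F : List Gate) :
    runGates V (E ++ F) = runGates (runGates V E) F := by
  induction E generalizing V with
  | nil => rfl
  | cons g gs ih => simp [runGates, ih]

lemma length_runGates (V : List ℂ) (E : List Gate) :
    (runGates V E).length = V.length + E.length := by
  induction E generalizing V with
  | nil => simp [runGates]
  | cons g gs ih =>
    simp only [runGates]
    rw [ih]
    simp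
    ring

lemma getD_runGates_of_lt (V : List ℂ) (E : List Gate) {u : ℕ} (hu : u < V.length) :
    (runGates V E).getD u 0 = V.getD u 0 := by
  induction E generalizing V with
  | nil => rfl
  | cons g gs ih =>
    simp only [runGates]
    rw [ih _ (by simp; omega), getD_append_single, if_pos hu]

/-- Gates produced from one gate, and the new number of the wire of its value. -/
noncomputable def emit (n N : ℕ) (m : List ℕ) (Λ : List ℝ) : Gate → List Gate × ℕ
  | .add u v =>
    if Λ.getD v 1 ≤ Λ.getD u 1 then
      ([.smul ((Λ.getD v 1 / Λ.getD u 1 : ℝ) : ℂ) (m.getD v n), .add (m.getD u n) N], N + 1)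
    else
      ([.smul ((Λ.getD u 1 / Λ.getD v 1 : ℝ) : ℂ) (m.getD u n), .add N (m.getD v n)], N + 1)
  | .sub u v =>
    if Λ.getD v 1 ≤ Λ.getD u 1 then
      ([.smul ((Λ.getD v 1 / Λ.getD u 1 : ℝ) : ℂ) (m.getD v n), .sub (m.getD u n) N], N + 1)
    else
      ([.smul ((Λ.getD u 1 / Λ.getD v 1 : ℝ) : ℂ) (m.getD u n), .sub N (m.getD v n)], N + 1)
  | .smul c u =>
    ([.smul (c / ((max 1 ‖c‖ : ℝ) : ℂ)) (m.getD u n)], N)

/-- The invariant of the translation. -/
structure NormInv (n : ℕ) (U V : List ℂ) (m : List ℕ) (Λ : List ℝ) : Prop where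
  n_lt : n < V.length
  zero_wire : V.getD n 0 = 0
  map_lt : ∀ w, m.getD w n < V.length
  val : ∀ w, V.getD (m.getD w n) 0 = U.getD w 0 / ((Λ.getD w 1 : ℝ) : ℂ)
  pos : ∀ w, 1 ≤ Λ.getD w 1
  len_m : m.length = U.length
  len_Λ : Λ.length = U.length

lemma norm_div_le_one {a b : ℝ} (ha : 1 ≤ a) (hb : 1 ≤ b) (hab : a ≤ b) :
    ‖((a / b : ℝ) : ℂ)‖ ≤ 1 := by
  rw [Complex.norm_real, Real.norm_of_nonneg (by positivity)]
  exact (div_le_one (by linarith)).2 hab

lemma norm_div_max_le_one (c : ℂ) : ‖c / ((max 1 ‖c‖ : ℝ) : ℂ)‖ ≤ 1 := by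
  rw [norm_div, Complex.norm_real, Real.norm_of_nonneg (by positivity)]
  exact (div_le_one (by positivity)).2 (le_max_right _ _)

/-- All scalars of a gate have modulus at most one. -/
def Gate.Small : Gate → Prop
  | .add _ _ => True
  | .sub _ _ => True
  | .smul c _ => ‖c‖ ≤ 1

lemma val_two (V : List ℂ) (g1 g2 : Gate) :
    (runGates V [g1, g2]).getD (V.length + 1) 0 = g2.eval (V ++ [g1.eval V]) := by
  show ((V ++ [g1.eval V]) ++ [g2.eval (V ++ [g1.eval V])]).getD (V.length + 1) 0 = _
  rw [getD_append_single, if_neg (by simp), if_pos (by simp)]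

lemma val_one (V : List ℂ) (g1 : Gate) :
    (runGates V [g1]).getD V.length 0 = g1.eval V := by
  show (V ++ [g1.eval V]).getD V.length 0 = _
  rw [getD_append_single, if_neg (by simp), if_pos rfl]

lemma getD_app_lt (V : List ℂ) (a : ℂ) {i : ℕ} (hi : i < V.length) :
    (V ++ [a]).getD i 0 = V.getD i 0 := by
  rw [getD_append_single, if_pos hi]

lemma getD_app_last (V : List ℂ) (a : ℂ) : (V ++ [a]).getD V.length 0 = a := by
  rw [getD_append_single, if_neg (lt_irrefl _), if_pos rfl]

lemma emit_spec {n : ℕ} {U V : List ℂ} {m : List ℕ} {Λ : List ℝ} (h : NormInv n U V m Λ)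
    (g : Gate) :
    NormInv n (U ++ [g.eval U]) (runGates V (emit n V.length m Λ g).1)
        (m ++ [(emit n V.length m Λ g).2]) (Λ ++ [g.pathStep Λ]) ∧
      (emit n V.length m Λ g).1.length ≤ 2 ∧
      (∀ e ∈ (emit n V.length m Λ g).1, e.Small) ∧
      prodW (RingHom.id ℂ) ∅ 0 (emit n V.length m Λ g).1 ≤ 10 := by
  have hval := h.val
  have hpos := h.pos
  have hlt := h.map_lt
  -- the general facts about the extended lists
  have key : ∀ (E : List Gate) (res : ℕ) (lam : ℝ), 1 ≤ lam →
      res < (runGates V E).length →
      (runGates V E).getD res 0 = g.eval U / ((lam : ℝ) : ℂ) →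
      g.pathStep Λ = lam →
      NormInv n (U ++ [g.eval U]) (runGates V E) (m ++ [res]) (Λ ++ [g.pathStep Λ]) := by
    intro E res lam hlam hres hresv hstep
    have hVlt : ∀ u, u < V.length → (runGates V E).getD u 0 = V.getD u 0 :=
      fun u hu => getD_runGates_of_lt V E hu
    have hlen : V.length ≤ (runGates V E).length := by rw [length_runGates]; omega
    refine ⟨by have := h.n_lt; omega, ?_, ?_, ?_, ?_, ?_, ?_⟩
    · rw [hVlt n h.n_lt]; exact h.zero_wire
    · intro w
      rw [getD_append_single]
      split_ifs with h1 h2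
      · have := hlt w; omega
      · exact hres
      · have := h.n_lt; omega
    · intro w
      rw [getD_append_single, getD_append_single, getD_append_single, h.len_m, h.len_Λ]
      split_ifs with h1 h2
      · rw [hVlt _ (hlt w)]; exact hval w
      · rw [hresv, hstep]
      · rw [hVlt n h.n_lt, h.zero_wire]; simp
    · intro w
      rw [getD_append_single, h.len_Λ]
      split_ifs with h1 h2
      · exact hpos w
      · rw [hstep]; exact hlam
      · exact le_refl _
    · simp [h.len_m]
    · simp [h.len_Λ]
  have hne : ∀ w, ((Λ.getD w 1 : ℝ) : ℂ) ≠ 0 := by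
    intro w
    have := hpos w
    exact_mod_cast (by linarith : Λ.getD w 1 ≠ 0)
  cases g with
  | add u v =>
    by_cases hle : Λ.getD v 1 ≤ Λ.getD u 1
    · have hE : emit n V.length m Λ (.add u v) =
          ([.smul ((Λ.getD v 1 / Λ.getD u 1 : ℝ) : ℂ) (m.getD v n),
            .add (m.getD u n) V.length], V.length + 1) := if_pos hle
      rw [hE]
      refine ⟨?_, by simp, ?_, ?_⟩
      · apply key _ _ (Λ.getD u 1) (hpos u)
        · rw [length_runGates]; simp
        · rw [val_two]
          set a : ℂ := ((Λ.getD v 1 / Λ.getD u 1 : ℝ) : ℂ) * V.getD (m.getD v n) 0 with ha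
          show (V ++ [a]).getD (m.getD u n) 0 + (V ++ [a]).getD V.length 0 = Gate.eval U (.add u v) / _
          rw [getD_app_lt V a (hlt u), getD_app_last, ha, hval u, hval v]
          show _ = (U.getD u 0 + U.getD v 0) / _
          have h1 := hne u
          have h2 := hne v
          push_cast
          field_simp
        · exact max_eq_left hle
      · intro e he
        simp only [List.mem_cons, List.not_mem_nil, or_false] at he
        rcases he with rfl | rfl
        · exact norm_div_le_one (hpos v) (hpos u) hle
        · trivial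
      · simp only [prodW, Gate.weight, RingHom.id_apply, Finset.notMem_empty, if_false]
        have h3 := norm_div_le_one (hpos v) (hpos u) hle
        have h4 := norm_nonneg ((Λ.getD v 1 / Λ.getD u 1 : ℝ) : ℂ)
        nlinarith
    · have hle' : Λ.getD u 1 ≤ Λ.getD v 1 := (not_le.1 hle).le
      have hE : emit n V.length m Λ (.add u v) =
          ([.smul ((Λ.getD u 1 / Λ.getD v 1 : ℝ) : ℂ) (m.getD u n),
            .add V.length (m.getD v n)], V.length + 1) := if_neg hle
      rw [hE]
      refine ⟨?_, by simp, ?_, ?_⟩
      · apply key _ _ (Λ.getD v 1) (hpos v)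
        · rw [length_runGates]; simp
        · rw [val_two]
          set a : ℂ := ((Λ.getD u 1 / Λ.getD v 1 : ℝ) : ℂ) * V.getD (m.getD u n) 0 with ha
          show (V ++ [a]).getD V.length 0 + (V ++ [a]).getD (m.getD v n) 0 = Gate.eval U (.add u v) / _
          rw [getD_app_last, getD_app_lt V a (hlt v), ha, hval u, hval v]
          show _ = (U.getD u 0 + U.getD v 0) / _
          have h1 := hne u
          have h2 := hne v
          push_cast
          field_simp
        · exact max_eq_right hle'
      · intro e he
        simp only [List.mem_cons, List.not_mem_nil, or_false] at he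
        rcases he with rfl | rfl
        · exact norm_div_le_one (hpos u) (hpos v) hle'
        · trivial
      · simp only [prodW, Gate.weight, RingHom.id_apply, Finset.notMem_empty, if_false]
        have h3 := norm_div_le_one (hpos u) (hpos v) hle'
        have h4 := norm_nonneg ((Λ.getD u 1 / Λ.getD v 1 : ℝ) : ℂ)
        nlinarith
  | sub u v =>
    by_cases hle : Λ.getD v 1 ≤ Λ.getD u 1
    · have hE : emit n V.length m Λ (.sub u v) =
          ([.smul ((Λ.getD v 1 / Λ.getD u 1 : ℝ) : ℂ) (m.getD v n),
            .sub (m.getD u n) V.length], V.length + 1) := if_pos hle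
      rw [hE]
      refine ⟨?_, by simp, ?_, ?_⟩
      · apply key _ _ (Λ.getD u 1) (hpos u)
        · rw [length_runGates]; simp
        · rw [val_two]
          set a : ℂ := ((Λ.getD v 1 / Λ.getD u 1 : ℝ) : ℂ) * V.getD (m.getD v n) 0 with ha
          show (V ++ [a]).getD (m.getD u n) 0 - (V ++ [a]).getD V.length 0 = Gate.eval U (.sub u v) / _
          rw [getD_app_lt V a (hlt u), getD_app_last, ha, hval u, hval v]
          show _ = (U.getD u 0 - U.getD v 0) / _
          have h1 := hne u
          have h2 := hne v
          push_cast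
          field_simp
        · exact max_eq_left hle
      · intro e he
        simp only [List.mem_cons, List.not_mem_nil, or_false] at he
        rcases he with rfl | rfl
        · exact norm_div_le_one (hpos v) (hpos u) hle
        · trivial
      · simp only [prodW, Gate.weight, RingHom.id_apply, Finset.notMem_empty, if_false]
        have h3 := norm_div_le_one (hpos v) (hpos u) hle
        have h4 := norm_nonneg ((Λ.getD v 1 / Λ.getD u 1 : ℝ) : ℂ)
        nlinarith
    · have hle' : Λ.getD u 1 ≤ Λ.getD v 1 := (not_le.1 hle).le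
      have hE : emit n V.length m Λ (.sub u v) =
          ([.smul ((Λ.getD u 1 / Λ.getD v 1 : ℝ) : ℂ) (m.getD u n),
            .sub V.length (m.getD v n)], V.length + 1) := if_neg hle
      rw [hE]
      refine ⟨?_, by simp, ?_, ?_⟩
      · apply key _ _ (Λ.getD v 1) (hpos v)
        · rw [length_runGates]; simp
        · rw [val_two]
          set a : ℂ := ((Λ.getD u 1 / Λ.getD v 1 : ℝ) : ℂ) * V.getD (m.getD u n) 0 with ha
          show (V ++ [a]).getD V.length 0 - (V ++ [a]).getD (m.getD v n) 0 = Gate.eval U (.sub u v) / _
          rw [getD_app_last, getD_app_lt V a (hlt v), ha, hval u, hval v]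
          show _ = (U.getD u 0 - U.getD v 0) / _
          have h1 := hne u
          have h2 := hne v
          push_cast
          field_simp
        · exact max_eq_right hle'
      · intro e he
        simp only [List.mem_cons, List.not_mem_nil, or_false] at he
        rcases he with rfl | rfl
        · exact norm_div_le_one (hpos u) (hpos v) hle'
        · trivial
      · simp only [prodW, Gate.weight, RingHom.id_apply, Finset.notMem_empty, if_false]
        have h3 := norm_div_le_one (hpos u) (hpos v) hle'
        have h4 := norm_nonneg ((Λ.getD u 1 / Λ.getD v 1 : ℝ) : ℂ)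
        nlinarith
  | smul c u =>
    have hE : emit n V.length m Λ (.smul c u) =
        ([.smul (c / ((max 1 ‖c‖ : ℝ) : ℂ)) (m.getD u n)], V.length) := rfl
    have hmax : (1 : ℝ) ≤ max 1 ‖c‖ := le_max_left _ _
    rw [hE]
    refine ⟨?_, by simp, ?_, ?_⟩
    · apply key _ _ (max 1 ‖c‖ * Λ.getD u 1) (by nlinarith [hpos u])
      · rw [length_runGates]; simp
      · rw [val_one]
        show (c / ((max 1 ‖c‖ : ℝ) : ℂ)) * V.getD (m.getD u n) 0 = (c * U.getD u 0) / _
        rw [hval u]
        have h1 := hne u
        have h2 : ((max 1 ‖c‖ : ℝ) : ℂ) ≠ 0 := by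
          exact_mod_cast (by linarith : max 1 ‖c‖ ≠ 0)
        push_cast
        field_simp
      · rfl
    · intro e he
      simp only [List.mem_cons, List.not_mem_nil, or_false] at he
      rcases he with rfl
      exact norm_div_max_le_one c
    · simp only [prodW, Gate.weight, RingHom.id_apply, Finset.notMem_empty, if_false]
      have h3 := norm_div_max_le_one c
      have h4 := norm_nonneg (c / ((max 1 ‖c‖ : ℝ) : ℂ))
      nlinarith

/-- The gates of the translation. -/
noncomputable def normGates (n : ℕ) : List ℕ → List ℝ → ℕ → List Gate → List Gate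
  | _, _, _, [] => []
  | m, Λ, N, g :: gs =>
    (emit n N m Λ g).1 ++
      normGates n (m ++ [(emit n N m Λ g).2]) (Λ ++ [g.pathStep Λ])
        (N + (emit n N m Λ g).1.length) gs

/-- The final wire map of the translation. -/
noncomputable def normMap (n : ℕ) : List ℕ → List ℝ → ℕ → List Gate → List ℕ
  | m, _, _, [] => m
  | m, Λ, N, g :: gs =>
    normMap n (m ++ [(emit n N m Λ g).2]) (Λ ++ [g.pathStep Λ])
      (N + (emit n N m Λ g).1.length) gs

lemma prodW_append (σ : ℂ →+* ℂ) (i : ℕ) (E F : List Gate) :
    prodW σ ∅ i (E ++ F) = prodW σ ∅ i E * prodW σ ∅ (i + E.length) F := by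
  induction E generalizing i with
  | nil => simp [prodW]
  | cons g gs ih =>
    simp only [List.cons_append, prodW, ih, Finset.notMem_empty, if_false, List.length_cons]
    rw [mul_assoc]
    congr 3
    ring

lemma prodW_empty_shift (σ : ℂ →+* ℂ) (i j : ℕ) (E : List Gate) :
    prodW σ ∅ i E = prodW σ ∅ j E := by
  induction E generalizing i j with
  | nil => rfl
  | cons g gs ih => simp only [prodW, Finset.notMem_empty, if_false]; rw [ih (i + 1) (j + 1)]

lemma norm_spec {n : ℕ} (gs : List Gate) {U V : List ℂ} {m : List ℕ} {Λ : List ℝ}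
    (h : NormInv n U V m Λ) :
    NormInv n (runGates U gs) (runGates V (normGates n m Λ V.length gs))
        (normMap n m Λ V.length gs) (runPath Λ gs) ∧
      (normGates n m Λ V.length gs).length ≤ 2 * gs.length ∧
      (∀ e ∈ normGates n m Λ V.length gs, e.Small) ∧
      prodW (RingHom.id ℂ) ∅ 0 (normGates n m Λ V.length gs) ≤ 10 ^ gs.length := by
  induction gs generalizing U V m Λ with
  | nil => exact ⟨h, by simp [normGates], by simp [normGates], by simp [normGates, prodW]⟩
  | cons g gs ih =>
    obtain ⟨h1, h2, h3, h4⟩ := emit_spec h g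
    have hlen : V.length + (emit n V.length m Λ g).1.length =
        (runGates V (emit n V.length m Λ g).1).length := by rw [length_runGates]
    obtain ⟨i1, i2, i3, i4⟩ := ih h1
    simp only [normGates, normMap, runGates, runPath, runGates_append]
    rw [hlen]
    refine ⟨i1, ?_, ?_, ?_⟩
    · simp only [List.length_append, List.length_cons]
      omega
    · intro e he
      rcases List.mem_append.1 he with he | he
      · exact h3 e he
      · exact i3 e he
    · rw [prodW_append, prodW_empty_shift _ (0 + _) 0, List.length_cons, pow_succ']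
      exact mul_le_mul h4 i4 (prodW_nonneg _ _ _ _) (by norm_num)

lemma normInv_start {n : ℕ} (x : Fin n → ℂ) :
    NormInv n (List.ofFn x ++ [0]) (List.ofFn x ++ [0]) (List.range (n + 1))
      (List.replicate (n + 1) 1) := by
  have hlen : (List.ofFn x ++ [(0 : ℂ)]).length = n + 1 := by simp
  have hm : ∀ w, (List.range (n + 1)).getD w n = if w < n + 1 then w else n := by
    intro w
    split_ifs with h
    · rw [List.getD_eq_getElem _ _ (by simpa using h)]; simp
    · rw [List.getD_eq_default _ _ (by simp; omega)]
  have hΛ : ∀ w, (List.replicate (n + 1) (1 : ℝ)).getD w 1 = 1 := by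
    intro w
    by_cases h : w < n + 1
    · rw [List.getD_eq_getElem _ _ (by simpa using h)]; simp
    · rw [List.getD_eq_default _ _ (by simp; omega)]
  have hz : (List.ofFn x ++ [(0 : ℂ)]).getD n 0 = 0 := by
    rw [getD_append_single]
    simp
  refine ⟨by simp, hz, ?_, ?_, ?_, by simp, by simp⟩
  · intro w
    rw [hm, hlen]
    split_ifs <;> omega
  · intro w
    rw [hm, hΛ]
    split_ifs with h
    · simp
    · rw [hz, List.getD_eq_default _ _ (by rw [hlen]; omega)]
      simp
  · intro w; rw [hΛ]

/-- A gate whose argument wires are below `b`. -/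
def Gate.RefsLt (b : ℕ) : Gate → Prop
  | .add u v => u < b ∧ v < b
  | .sub u v => u < b ∧ v < b
  | .smul _ u => u < b

lemma eval_append_of_refs (V W : List ℂ) (g : Gate) (h : g.RefsLt V.length) :
    g.eval (V ++ W) = g.eval V := by
  have hget : ∀ u, u < V.length → (V ++ W).getD u 0 = V.getD u 0 := by
    intro u hu
    rw [List.getD_eq_getElem _ _ (by simp; omega), List.getD_eq_getElem _ _ hu,
      List.getElem_append_left hu]
  cases g with
  | add u v => simp only [Gate.eval, hget u h.1, hget v h.2]
  | sub u v => simp only [Gate.eval, hget u h.1, hget v h.2]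
  | smul c u => simp only [Gate.eval, hget u h]

lemma runGates_indep (V : List ℂ) (L : List Gate) (b : ℕ) (hb : b ≤ V.length)
    (hL : ∀ g ∈ L, g.RefsLt b) (W : List ℂ) :
    runGates (V ++ W) L = V ++ W ++ L.map (fun g => g.eval V) := by
  induction L generalizing W with
  | nil => simp [runGates]
  | cons g gs ih =>
    have hg : g.RefsLt V.length := by
      have := hL g (by simp)
      cases g with
      | add u v => exact ⟨by have := this.1; omega, by have := this.2; omega⟩
      | sub u v => exact ⟨by have := this.1; omega, by have := this.2; omega⟩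
      | smul c u =>
        have h : u < b := this
        show u < V.length
        omega
    simp only [runGates, eval_append_of_refs V W g hg]
    rw [List.append_assoc, ih (fun g' hg' => hL g' (by simp [hg'])) (W ++ [g.eval V])]
    simp [List.append_assoc]

/-- The matrix computed by the bounded part of the normal form. -/
noncomputable def scaledMatrix {n : ℕ} (A : Matrix (Fin n) (Fin n) ℂ) (lam : Fin n → ℝ) :
    Matrix (Fin n) (Fin n) ℂ := Matrix.of fun j k => A j k / ((lam j : ℝ) : ℂ)

/-- The bounded part of the normal form. -/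
noncomputable def normBounded {n : ℕ} (C : LinearCircuit n) : LinearCircuit n :=
  ⟨normGates n (List.range (n + 1)) (List.replicate (n + 1) 1) (n + 1) C.gates,
    fun j => (normMap n (List.range (n + 1)) (List.replicate (n + 1) 1) (n + 1) C.gates).getD
      (C.outputs j) n⟩

lemma normBounded_computes {n : ℕ} {C : LinearCircuit n} {A : Matrix (Fin n) (Fin n) ℂ}
    (hC : C.Computes A) : (normBounded C).Computes (scaledMatrix A C.pathProduct) := by
  intro x j
  have h := (norm_spec C.gates (normInv_start x)).1
  have hlen : (List.ofFn x ++ [(0 : ℂ)]).length = n + 1 := by simp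
  rw [hlen] at h
  have hv := h.val (C.outputs j)
  have hA := hC x j
  show (runGates (List.ofFn x ++ [0]) (normBounded C).gates).getD ((normBounded C).outputs j) 0 = _
  simp only [normBounded]
  rw [hv]
  have hA' : (runGates (List.ofFn x ++ [0]) C.gates).getD (C.outputs j) 0 = A.mulVec x j := hA
  rw [hA']
  simp only [LinearCircuit.pathProduct, mulVec, dotProduct, scaledMatrix, Matrix.of_apply]
  rw [Finset.sum_div]
  refine Finset.sum_congr rfl fun k _ => ?_
  ring

lemma pathProduct_ge_one {n : ℕ} (C : LinearCircuit n) (j : Fin n) : 1 ≤ C.pathProduct j :=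
  (norm_spec C.gates (normInv_start (fun _ : Fin n => (0 : ℂ)))).1.pos (C.outputs j)

/-- The determinant bound. -/
theorem det_bound {n : ℕ} {C : LinearCircuit n} {A : Matrix (Fin n) (Fin n) ℂ}
    (hC : C.Computes A) (ho : Function.Injective C.outputs) (hdet : A.det ≠ 0) :
    Complex.normSq A.det ≤ prodW (RingHom.id ℂ) ∅ 0 C.gates := by
  classical
  set Q : Matrix (Fin n) (Fin n) ℂ := 1 with hQ
  have hPD0 : (Qᴴ * Q).PosDef := by
    simp only [hQ, conjTranspose_one, Matrix.mul_one]
    exact PosDef.one
  set L₀ := (basisForms n).map (restrictRow Q) with hL₀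
  have hL₀g : gramL L₀ = Qᴴ * Q := gramL_base Q
  set Lf := runIn L₀ C.gates with hLf
  have hLfmap : (forms C.gates : List (Fin n → ℂ)).map (restrictRow Q) = Lf := by
    rw [forms, runIn_map]
  have hPD0' : (gramL L₀).PosDef := by rw [hL₀g]; exact hPD0
  obtain ⟨hPDf, hup⟩ := det_run_le ∅ C.gates L₀ 0 hPD0' (fun j _ hj => by simp at hj)
  have hrow : ∀ j, Lf.getD (C.outputs j) 0 = A j ᵥ* Q := by
    intro j
    rw [← hLfmap, getD_map_linear, row_of_computes hC]
    rfl
  have hsum : ∑ j, outer (Lf.getD (C.outputs j) 0) = Aᴴ * A := by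
    simp only [hrow]
    rw [sum_outer_rows]
    simp [hQ]
  have hAinj : Function.Injective A.mulVec :=
    Matrix.mulVec_injective_of_isUnit ((Matrix.isUnit_iff_isUnit_det A).2 (isUnit_iff_ne_zero.2 hdet))
  have hPDA : (Aᴴ * A).PosDef := PosDef.conjTranspose_mul_self A hAinj
  have hlow := det_sum_le_det_gramL Lf C.outputs ho (by rw [hsum]; exact hPDA)
  rw [hsum] at hlow
  have hdetA : ((Aᴴ * A).det).re = Complex.normSq A.det := by
    rw [det_mul, det_conjTranspose, Complex.star_def, mul_comm, Complex.mul_conj]
    simp
  rw [hdetA] at hlow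
  rw [hL₀g] at hup
  have hone : ((Qᴴ * Q).det).re = 1 := by simp [hQ]
  rw [hone, mul_one] at hup
  exact hlow.trans hup

lemma normBounded_prodW {n : ℕ} (C : LinearCircuit n) :
    prodW (RingHom.id ℂ) ∅ 0 (normBounded C).gates ≤ 10 ^ C.gates.length := by
  have h := (norm_spec C.gates (normInv_start (fun _ : Fin n => (0 : ℂ)))).2.2.2
  have hlen : (List.ofFn (fun _ : Fin n => (0 : ℂ)) ++ [(0 : ℂ)]).length = n + 1 := by simp
  rw [hlen] at h
  exact h

lemma normBounded_length {n : ℕ} (C : LinearCircuit n) :
    (normBounded C).gates.length ≤ 2 * C.gates.length := by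
  have h := (norm_spec C.gates (normInv_start (fun _ : Fin n => (0 : ℂ)))).2.1
  have hlen : (List.ofFn (fun _ : Fin n => (0 : ℂ)) ++ [(0 : ℂ)]).length = n + 1 := by simp
  rw [hlen] at h
  exact h

lemma normBounded_small {n : ℕ} (C : LinearCircuit n) :
    ∀ e ∈ (normBounded C).gates, e.Small := by
  have h := (norm_spec C.gates (normInv_start (fun _ : Fin n => (0 : ℂ)))).2.2.1
  have hlen : (List.ofFn (fun _ : Fin n => (0 : ℂ)) ++ [(0 : ℂ)]).length = n + 1 := by simp
  rw [hlen] at h
  exact h

lemma fourierAt_det_normSq {n : ℕ} {ω : ℂ} (hω : IsPrimitiveRoot ω n) (hn : 1 ≤ n) :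
    Complex.normSq (fourierAt n ω).det = (n : ℝ) ^ n := by
  have h := fourierAt_orthogonal hω hn
  have h1 := congrArg Matrix.det h
  rw [det_mul, det_conjTranspose, Complex.star_def, det_smul, det_one, mul_one,
    Fintype.card_fin, mul_comm, Complex.mul_conj] at h1
  exact_mod_cast h1

/-- The lower bound in terms of products of scalars along paths. -/
theorem path_bound {n : ℕ} {ω : ℂ} (hω : IsPrimitiveRoot ω n) (hn : 2 ≤ n) {C : LinearCircuit n}
    (hC : C.Computes (fourierAt n ω)) :
    (n : ℝ) ^ n ≤ 10 ^ C.gates.length * ∏ j, (C.pathProduct j) ^ 2 := by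
  classical
  set Λ := C.pathProduct with hΛ
  have hΛ1 : ∀ j, 1 ≤ Λ j := pathProduct_ge_one C
  have hΛpos : ∀ j, 0 < Λ j := fun j => by linarith [hΛ1 j]
  have hΛne : ∀ j, ((Λ j : ℝ) : ℂ) ≠ 0 := fun j => by exact_mod_cast (hΛpos j).ne'
  have hC' := normBounded_computes hC
  rw [← hΛ] at hC'
  have hscaled : scaledMatrix (fourierAt n ω) Λ =
      Matrix.diagonal (fun j => ((Λ j : ℝ) : ℂ)⁻¹) * fourierAt n ω := by
    ext j k
    rw [Matrix.diagonal_mul]
    simp [scaledMatrix, div_eq_inv_mul]
  have hdetF : (fourierAt n ω).det ≠ 0 := by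
    intro h0
    have h1 := fourierAt_det_normSq hω (by omega)
    rw [h0, map_zero] at h1
    have hnR : (0 : ℝ) < n := by exact_mod_cast (by omega : 0 < n)
    exact (pow_pos hnR n).ne h1
  have hdet : (scaledMatrix (fourierAt n ω) Λ).det =
      (∏ j, ((Λ j : ℝ) : ℂ)⁻¹) * (fourierAt n ω).det := by
    rw [hscaled, det_mul, det_diagonal]
  have hdetne : (scaledMatrix (fourierAt n ω) Λ).det ≠ 0 := by
    rw [hdet]
    exact mul_ne_zero (Finset.prod_ne_zero_iff.2 fun j _ => inv_ne_zero (hΛne j)) hdetF
  have hout : Function.Injective (normBounded C).outputs := by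
    intro j j' hjj
    have h1 := row_of_computes hC' j
    have h2 := row_of_computes hC' j'
    rw [hjj, h2] at h1
    have h0 := congrFun h1 (⟨0, by omega⟩ : Fin n)
    have h3 := congrFun h1 (⟨1, by omega⟩ : Fin n)
    simp only [scaledMatrix, fourierAt, Matrix.of_apply, mul_zero, pow_zero, mul_one] at h0 h3
    have hΛeq : ((Λ j' : ℝ) : ℂ) = ((Λ j : ℝ) : ℂ) := by
      have h4 := hΛne j
      have h5 := hΛne j'
      field_simp at h0
      exact h0.symm
    rw [hΛeq] at h3
    have h6 : ω ^ (j' : ℕ) = ω ^ (j : ℕ) := by
      have h4 := hΛne j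
      field_simp at h3
      exact h3
    exact Fin.ext (hω.pow_inj j'.2 j.2 h6).symm
  have hbound := det_bound hC' hout hdetne
  have hup := hbound.trans (normBounded_prodW C)
  rw [hdet, map_mul, fourierAt_det_normSq hω (by omega), map_prod] at hup
  have hterm : ∀ j, Complex.normSq (((Λ j : ℝ) : ℂ)⁻¹) = ((Λ j) ^ 2)⁻¹ := by
    intro j
    rw [map_inv₀, Complex.normSq_ofReal]
    ring_nf
  simp only [hterm] at hup
  rw [Finset.prod_inv_distrib] at hup
  have hprod : 0 < ∏ j, (Λ j) ^ 2 := Finset.prod_pos fun j _ => by have := hΛpos j; positivity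
  rw [inv_mul_eq_div, div_le_iff₀ hprod] at hup
  exact hup

/-- The Fourier matrix bound for all conjugates. -/
theorem path_bound_fourier {n : ℕ} (hn : 2 ≤ n) {C : LinearCircuit n}
    (hC : C.Computes (fourier n)) (σ : ℂ →+* ℂ) :
    (n : ℝ) ^ n ≤ 10 ^ C.gates.length * ∏ j, ((C.map σ).pathProduct j) ^ 2 := by
  have hn0 : n ≠ 0 := by omega
  have hω : IsPrimitiveRoot (σ (Complex.exp (2 * Real.pi * Complex.I / n))) n :=
    (Complex.isPrimitiveRoot_exp n hn0).map_of_injective σ.injective
  have hC' : (C.map σ).Computes (fourierAt n (σ (Complex.exp (2 * Real.pi * Complex.I / n)))) := by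
    rw [← map_fourier]
    exact computes_map σ hC
  have h := path_bound hω hn hC'
  have hlen : (C.map σ).gates.length = C.gates.length := by simp [LinearCircuit.map]
  rwa [hlen] at h

/-- The final scalar gates of the normal form. -/
noncomputable def finalGates {n : ℕ} (C : LinearCircuit n) : List Gate :=
  List.ofFn fun j : Fin n => Gate.smul ((C.pathProduct j : ℝ) : ℂ) ((normBounded C).outputs j)

/-- The normal form of a circuit. -/
noncomputable def normalForm {n : ℕ} (C : LinearCircuit n) : LinearCircuit n :=
  ⟨(normBounded C).gates ++ finalGates C, fun j => n + 1 + (normBounded C).gates.length + j⟩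

lemma normalForm_computes {n : ℕ} {C : LinearCircuit n} {A : Matrix (Fin n) (Fin n) ℂ}
    (hC : C.Computes A) : (normalForm C).Computes A := by
  intro x j
  have hinv := (norm_spec C.gates (normInv_start x)).1
  have hlen0 : (List.ofFn x ++ [(0 : ℂ)]).length = n + 1 := by simp
  rw [hlen0] at hinv
  set Vf := runGates (List.ofFn x ++ [0]) (normBounded C).gates with hVf
  have hVflen : Vf.length = n + 1 + (normBounded C).gates.length := by
    rw [hVf, length_runGates, hlen0]
  have hrefs : ∀ g ∈ finalGates C, g.RefsLt Vf.length := by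
    intro g hg
    simp only [finalGates, List.mem_ofFn] at hg
    obtain ⟨j', rfl⟩ := hg
    exact hinv.map_lt (C.outputs j')
  have hrun : (normalForm C).values x = Vf ++ (finalGates C).map (fun g => g.eval Vf) := by
    show runGates (List.ofFn x ++ [0]) ((normBounded C).gates ++ finalGates C) = _
    rw [runGates_append, ← hVf]
    have := runGates_indep Vf (finalGates C) Vf.length le_rfl hrefs []
    simpa using this
  rw [hrun]
  have hidx : (normalForm C).outputs j = Vf.length + (j : ℕ) := by
    rw [hVflen]; rfl
  rw [hidx]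
  have hjlt : (j : ℕ) < ((finalGates C).map (fun g => g.eval Vf)).length := by
    simp [finalGates]
  rw [List.getD_eq_getElem _ _ (by simp only [List.length_append]; omega),
    List.getElem_append_right (by omega)]
  simp only [Nat.add_sub_cancel_left]
  simp only [List.getElem_map, finalGates, List.getElem_ofFn, Gate.eval]
  have hv := hinv.val (C.outputs j)
  have hne : ((C.pathProduct j : ℝ) : ℂ) ≠ 0 := by
    have := pathProduct_ge_one C j
    exact_mod_cast (by linarith : C.pathProduct j ≠ 0)
  have hv' : Vf.getD ((normBounded C).outputs j) 0 =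
      (runGates (List.ofFn x ++ [0]) C.gates).getD (C.outputs j) 0 / ((C.pathProduct j : ℝ) : ℂ) :=
    hv
  rw [hv']
  have hA : (runGates (List.ofFn x ++ [0]) C.gates).getD (C.outputs j) 0 = A.mulVec x j := hC x j
  rw [hA]
  field_simp

lemma normalForm_length {n : ℕ} (C : LinearCircuit n) :
    (normalForm C).gates.length ≤ 2 * C.gates.length + n := by
  have := normBounded_length C
  simp only [normalForm, finalGates, List.length_append, List.length_ofFn]
  omega

lemma normalForm_numLarge {n : ℕ} (C : LinearCircuit n) :
    (normalForm C).numLarge (RingHom.id ℂ) 1 ≤ n := by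
  classical
  set E := (normBounded C).gates with hE
  rw [LinearCircuit.numLarge]
  -- large gates lie in the final part
  have hmaps : ∀ i : Fin (normalForm C).gates.length,
      ((normalForm C).gates.get i).IsLarge (RingHom.id ℂ) 1 → E.length ≤ i := by
    intro i hi
    by_contra hlt
    have hlt' : (i : ℕ) < E.length := by omega
    have hg : (normalForm C).gates.get i = E[(i : ℕ)] := by
      simp only [normalForm]
      exact List.getElem_append_left hlt'
    rw [hg] at hi
    have hs := normBounded_small C E[(i : ℕ)] (List.getElem_mem hlt')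
    cases hc : E[(i : ℕ)] with
    | add u v => rw [hc] at hi; exact hi
    | sub u v => rw [hc] at hi; exact hi
    | smul c u =>
      rw [hc] at hi hs
      simp only [Gate.IsLarge, RingHom.id_apply] at hi
      simp only [Gate.Small] at hs
      linarith
  have hlenN : (normalForm C).gates.length = E.length + n := by
    simp [normalForm, finalGates, hE]
  have hcard : (Finset.univ.filter fun i : Fin (normalForm C).gates.length =>
      ((normalForm C).gates.get i).IsLarge (RingHom.id ℂ) 1).card ≤ (Finset.range n).card := by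
    apply Finset.card_le_card_of_injOn
      (fun i : Fin (normalForm C).gates.length => (i : ℕ) - E.length)
    · intro i hi
      have h1 := hmaps i (Finset.mem_filter.1 (Finset.mem_coe.1 hi)).2
      have h2 := i.2
      simp only [Finset.coe_range, Set.mem_Iio]
      omega
    · intro i hi i' hi' hii
      have h1 := hmaps i (Finset.mem_filter.1 (Finset.mem_coe.1 hi)).2
      have h2 := hmaps i' (Finset.mem_filter.1 (Finset.mem_coe.1 hi')).2
      have h3 : (i : ℕ) - E.length = (i' : ℕ) - E.length := hii
      exact Fin.ext (by omega)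
  simpa using hcard

end Vale.Agent.Lib.P344
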